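import Vale.Agent.P127.MaximalForm
import Vale.Agent.P127.Placed

/-!
The Kakeya problem for triangular choices of base points: the maximal estimate at the critical
exponent with a logarithmic loss, and the dimension form with segments placed anywhere on their
lines.
-/

namespace Vale.Agent.Results.P127.TriangularKakeya

open MeasureTheory Set
open scoped ENNReal NNReal

theorem result :
    (∀ m : ℕ, ∃ C : ℝ≥0, ∀ δ : ℝ, 0 < δ → δ < 1 →
      ∀ a : (Fin m → ℝ) → Fin m → ℝ, Measurable a →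
      (∀ v w i, (∀ j ≤ i, v j = w j) → a v i = a w i) →
      ∀ f : ℝ × (Fin m → ℝ) → ℝ≥0∞, Measurable f →
      ∫⁻ v in Icc (0 : Fin m → ℝ) 1, (∫⁻ t in Icc (0 : ℝ) 1, ((ENNReal.ofReal (2 * δ))⁻¹) ^ m *
          ∫⁻ s in Icc (fun _ : Fin m => -δ) (fun _ => δ), f (t, t • v + a v + s)) ^ (m + 1)
        ≤ C * ENNReal.ofReal (1 + Real.log δ⁻¹) ^ (2 * m) * ∫⁻ p, f p ^ (m + 1)) ∧
    ∀ (m : ℕ) (L : (ℝ × (Fin m → ℝ)) ≃L[ℝ] EuclideanSpace ℝ (Fin (m + 1)))
      (a : (Fin m → ℝ) → Fin m → ℝ), Measurable a →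
      (∀ v w i, (∀ j ≤ i, v j = w j) → a v i = a w i) →
      ∀ E : Set (Fin m → ℝ), MeasureTheory.volume E ≠ 0 →
      ∀ K : Set (EuclideanSpace ℝ (Fin (m + 1))),
      (∀ v ∈ E, ∃ p q : ℝ, p < q ∧ ∀ t ∈ Set.Icc p q, L (t, t • v + a v) ∈ K) →
      dimH K = (m + 1 : ℕ) :=
  ⟨fun m => Vale.Agent.P127.Maximal.maximal_triangular m,
    fun _ L a ha htri E hE K hK =>
      Vale.Agent.P127.dimH_eq_of_triangular_lines L a ha htri E hE K hK⟩

end Vale.Agent.Results.P127.TriangularKakeya
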